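import Vale.Agent.P141.H886.NumOf
import Vale.Agent.P141.H736.FixBD
import Vale.Agent.P141.H74.CutBC
import Vale.Agent.P141.H652.NumR
import Vale.Agent.P141.H652.NumQ
import Vale.Agent.P141.H329.WinS
import Vale.Agent.P141.H302.BornU
import Vale.Agent.P141.H548.LagU
import Vale.Agent.P141.H989.CrB3

/-!
# P141, line (A), increasing part: the moving pair `(Bg, Cg)` at one `x0`, class data

`pt` : the inequality `H886.FixBC` at class data, numbers `fE`, `fB`; `lBCg : H408.LBCg`.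
-/

namespace Vale.Agent.P141.H107

open Finset Matrix
open Vale.Agent.P075 (Ix)
open Vale.Agent.P141.PL (Pt iv ix cx mem_iv)
open Vale.Agent.P141.PL.H315 (Tri)
open Vale.Agent.P141.H48 (US ES BSl)
open Vale.Agent.P141.H305 (ClsM kapM)
open Vale.Agent.P141.H401 (StQ FibU FibP cb)
open Vale.Agent.P141.H677 (rt KT tr_T cP)
open Vale.Agent.P141.H652 (Th eb ah dB payS PbS)
open Vale.Agent.P141.H505.Sk1 (eT)
open Vale.Agent.P141.H408
open Vale.Agent.P141.H808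
open Vale.Agent.P141.H548 (vN oN chg kinds)
open Vale.Agent.P141.H302 (bN Pr pr_not pr_ch)
open Vale.Agent.P141.H457 (rs SD PG)
open Vale.Agent.P141.H874 (CP)
open Vale.Agent.P141.H419.WFamR
open Vale.Agent.P141.H912 (wS)
open Vale.Agent.P141.H736 (wE)
open Vale.Agent.P141.H886 (NumF SumQ SumU SumL PairU.map FixBC NN numBC_of pBC lbc_end NumBC)
open Vale.Agent.P141.H989.CrB (fCRB sumU_mB)

noncomputable section

open scoped Classical

set_option linter.unusedVariables false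
set_option linter.unusedSectionVars false

/-- the number of the second slot -/
def fE : NumF := fun ι _ _ p n ez F1 F2 F3 o K x s r U g u v Q1 Q2 Q3 x0 =>
  oN 0 ι p n ez F1 F2 F3 o K x s r U g u v Q1 Q2 Q3 x0 +
  vN 1 0 ι p n ez F1 F2 F3 o K x s r U g u v Q1 Q2 Q3 x0 +
  (∑ l ∈ range (K + 1), (3 / 4 : ℝ) ^ l * vN 0 l ι p n ez F1 F2 F3 o K x s r U g u v Q1 Q2 Q3 x0) +
  fCRB H989.CrB.mB ι p n ez F1 F2 F3 o K x s r U g u v Q1 Q2 Q3 x0 +
  bN 0 ι p n ez F1 F2 F3 o K x s r U g u v Q1 Q2 Q3 x0 +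
  (∑ l ∈ range (K + 1), (3 / 4 : ℝ) ^ l *
    bN (l + 1) ι p n ez F1 F2 F3 o K x s r U g u v Q1 Q2 Q3 x0)

/-- the number of the first slot -/
def fB : NumF := fun ι _ _ p n ez F1 F2 F3 o K x s r U g u v Q1 Q2 Q3 x0 =>
  dB p s r U K x u F3 Q3 x0 +
    payS (beI p r) (p.lam s r) o K (cx K x) u (fun k => H652.bS p s r U K u F3 Q3 x0 k) x0

theorem lag_one {σ : ℝ} {f : ℕ → NumF} (H : SumL σ f) (l : ℕ) : SumU σ (f l) := by
  refine PairU.map (M := 1) zero_le_one H ?_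
  intro ι _ _ p n ez F1 F2 F3 o K x s r U g u v Q1 Q2 Q3 X ht hs hr hez hX h
  rw [one_mul]
  exact h l

theorem sumE : SumU 1 fE :=
  ((((((lag_one H548.sumL_o 0).add (lag_one (H548.sumL_v le_rfl) 0)).add
    (H548.sumU_v (Nat.zero_le 1))).add sumU_mB).add H302.sumU_b0).add H302.sumU_b1)

theorem sumB : SumU (-1) fB := H652.EBU

section pt

variable {ι : Type} [Fintype ι] [DecidableEq ι] {p : H401.Num} {s r ez : ℝ} {o : ℤ} {K : ℕ}
  {x : Pt} {U : Tri} {u v : ℤ → ℤ → ι → ℝ} {F2 : ℕ → Pt → ℝ} {x0 : ℤ}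

/-- the moving part of the weight -/
abbrev Tx (p : H401.Num) (s r : ℝ) (o : ℤ) (K : ℕ) (x : Pt) (u : ℤ → ℤ → ι → ℝ) (x0 : ℤ) :
    ℕ → ℤ → ℤ → Matrix ι ι ℝ :=
  fun a x1 j => Th (p.lam s r) K (cx K x).2.1 (KT (p.lam s r) u x1) (o - 2) x0 x1 a j

/-- its drift -/
abbrev ex (p : H401.Num) (s r : ℝ) (o : ℤ) (K : ℕ) (x : Pt) (u : ℤ → ℤ → ι → ℝ) (x0 : ℤ) :
    ℕ → ℤ → ℤ → Matrix ι ι ℝ :=
  fun a x1 j => eb (p.lam s r) K (cx K x).2.1 (KT (p.lam s r) u x1) (o - 2) x0 x1 (a + 1) j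

/-- its moves -/
abbrev dx (p : H401.Num) (s r : ℝ) (o : ℤ) (K : ℕ) (x : Pt) (u : ℤ → ℤ → ι → ℝ) (x0 : ℤ) :
    ℕ → ℤ → ℤ → Matrix ι ι ℝ :=
  fun a x1 j => ah (p.lam s r) K (cx K x).2.1 (KT (p.lam s r) u x1) (o - 2) x0 x1 a j

theorem kinds_nn (ht : 0 < p.t) (hs : 0 < s) (hr : 1 ≤ r) (a : ℕ) (x1 z : ℤ) (w : ι → ℝ) :
    0 ≤ kinds p s r o K x u x0 a x1 z w := by
  have h1 := H548.zm_nonneg ht hs hr o K x u x0 a x1 z w
  have h2 := H548.ze_nonneg ht hs hr o K x u x0 a x1 z w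
  have h3 := H548.zd_nonneg ht hs hr o K x u x0 a x1 z w
  have h4 := H548.zq_nonneg ht hs hr o K x u x0 a x1 z w
  unfold H548.kinds
  linarith

theorem be_pos (ht : 0 < p.t) (hr : 1 ≤ r) : 0 < beI p r :=
  Real.rpow_pos_of_pos (div_pos ht (by linarith)) _

theorem vN_nn (ht : 0 < p.t) (hs : 0 < s) (hr : 1 ≤ r) (j q n : ℕ) (F1 F3 : ℕ → Pt → ℝ)
    (g : ℤ → ℤ → ℝ) (Q1 Q2 Q3 : ℕ → Pt → Prop) :
    0 ≤ vN j q ι p n ez F1 F2 F3 o K x s r U g u v Q1 Q2 Q3 x0 :=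
  sum_nonneg fun k _ => sum_nonneg fun x1 _ => sum_nonneg fun z _ =>
    add_nonneg (H548.chg_nonneg ht hs hr o K x u x0 _ _ _ _) (kinds_nn ht hs hr _ _ _ _)

theorem oN_nn (ht : 0 < p.t) (hs : 0 < s) (hr : 1 ≤ r) (q n : ℕ) (F1 F3 : ℕ → Pt → ℝ)
    (g : ℤ → ℤ → ℝ) (Q1 Q2 Q3 : ℕ → Pt → Prop) :
    0 ≤ oN q ι p n ez F1 F2 F3 o K x s r U g u v Q1 Q2 Q3 x0 :=
  sum_nonneg fun x1 _ => sum_nonneg fun z _ => H302.eT_nn ht hs hr _ _ _ _

theorem bN_nn (ht : 0 < p.t) (hs : 0 < s) (hr : 1 ≤ r) (q n : ℕ) (F1 F3 : ℕ → Pt → ℝ)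
    (g : ℤ → ℤ → ℝ) (Q1 Q2 Q3 : ℕ → Pt → Prop) :
    0 ≤ bN q ι p n ez F1 F2 F3 o K x s r U g u v Q1 Q2 Q3 x0 :=
  sum_nonneg fun k _ => sum_nonneg fun x1 _ => sum_nonneg fun z _ => by
    split_ifs
    · exact H302.eT_nn ht hs hr _ _ _ _
    · exact le_rfl

theorem cr_nn (ht : 0 < p.t) (hs : 0 < s) (hr : 1 ≤ r) (Pb : H989.CrB.MarkF) (n : ℕ)
    (F1 F3 : ℕ → Pt → ℝ) (g : ℤ → ℤ → ℝ) (Q1 Q2 Q3 : ℕ → Pt → Prop) :
    0 ≤ fCRB Pb ι p n ez F1 F2 F3 o K x s r U g u v Q1 Q2 Q3 x0 :=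
  sum_nonneg fun k _ => sum_nonneg fun x1 _ => sum_nonneg fun z _ => by
    split_ifs
    · exact H302.eT_nn ht hs hr _ _ _ _
    · exact le_rfl

theorem wv_nn (ht : 0 < p.t) (hs : 0 < s) (hr : 1 ≤ r) (n : ℕ) (F1 F3 : ℕ → Pt → ℝ)
    (g : ℤ → ℤ → ℝ) (Q1 Q2 Q3 : ℕ → Pt → Prop) :
    0 ≤ ∑ l ∈ range (K + 1), (3 / 4 : ℝ) ^ l *
      vN 0 l ι p n ez F1 F2 F3 o K x s r U g u v Q1 Q2 Q3 x0 :=
  sum_nonneg fun l _ => mul_nonneg (by positivity) (vN_nn ht hs hr _ _ _ _ _ _ _ _ _)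

theorem wb_nn (ht : 0 < p.t) (hs : 0 < s) (hr : 1 ≤ r) (n : ℕ) (F1 F3 : ℕ → Pt → ℝ)
    (g : ℤ → ℤ → ℝ) (Q1 Q2 Q3 : ℕ → Pt → Prop) :
    0 ≤ ∑ l ∈ range (K + 1), (3 / 4 : ℝ) ^ l *
      bN (l + 1) ι p n ez F1 F2 F3 o K x s r U g u v Q1 Q2 Q3 x0 :=
  sum_nonneg fun l _ => mul_nonneg (by positivity) (bN_nn ht hs hr _ _ _ _ _ _ _ _)

theorem nnE : NN fE := by
  intro ι _ _ p n ez F1 F2 F3 o K x s r U g u v Q1 Q2 Q3 x0 ht hs hr hez
  have h1 := oN_nn (ι := ι) (ez := ez) (o := o) (K := K) (x := x) (U := U) (u := u) (v := v)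
    (F2 := F2) (x0 := x0) ht hs hr 0 n F1 F3 g Q1 Q2 Q3
  have h2 := vN_nn (ι := ι) (ez := ez) (o := o) (K := K) (x := x) (U := U) (u := u) (v := v)
    (F2 := F2) (x0 := x0) ht hs hr 1 0 n F1 F3 g Q1 Q2 Q3
  have h3 := wv_nn (ι := ι) (ez := ez) (o := o) (K := K) (x := x) (U := U) (u := u) (v := v)
    (F2 := F2) (x0 := x0) ht hs hr n F1 F3 g Q1 Q2 Q3
  have h4 := cr_nn (ι := ι) (ez := ez) (o := o) (K := K) (x := x) (U := U) (u := u) (v := v)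
    (F2 := F2) (x0 := x0) ht hs hr H989.CrB.mB n F1 F3 g Q1 Q2 Q3
  have h5 := bN_nn (ι := ι) (ez := ez) (o := o) (K := K) (x := x) (U := U) (u := u) (v := v)
    (F2 := F2) (x0 := x0) ht hs hr 0 n F1 F3 g Q1 Q2 Q3
  have h6 := wb_nn (ι := ι) (ez := ez) (o := o) (K := K) (x := x) (U := U) (u := u) (v := v)
    (F2 := F2) (x0 := x0) ht hs hr n F1 F3 g Q1 Q2 Q3
  unfold fE
  linarith

theorem nnB : NN fB := by
  intro ι _ _ p n ez F1 F2 F3 o K x s r U g u v Q1 Q2 Q3 x0 ht hs hr hez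
  exact add_nonneg (H652.dB_nonneg x x0)
    (H652.payS_nonneg (be_pos ht hr) (H401.Num.lam_pos (p := p) ht hs hr) _)

/-- variation of the moves, time `k + j`, lag `q` -/
theorem var_le (ht : 0 < p.t) (hs : 0 < s) (hr : 1 ≤ r) (j q n : ℕ) (F1 F3 : ℕ → Pt → ℝ)
    (g : ℤ → ℤ → ℝ) (Q1 Q2 Q3 : ℕ → Pt → Prop) :
    (beI p r)⁻¹ * ∑ k ∈ Ico 0 (K - q), Dn K (cx K x).2.2 (cx K x).1 (dx p s r o K x u x0)
        (cS p ez U K v F2 x0 (k + j)) (k + q) ≤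
      vN j q ι p n ez F1 F2 F3 o K x s r U g u v Q1 Q2 Q3 x0 := by
  have hbe := be_pos (p := p) ht hr
  unfold H548.vN
  rw [mul_sum, ← range_eq_Ico]
  refine sum_le_sum fun k _ => ?_
  unfold H419.WFamR.Dn
  rw [mul_sum]
  refine sum_le_sum fun x1 _ => ?_
  rw [mul_sum]
  refine sum_le_sum fun z _ => ?_
  have h1 := kinds_nn (o := o) (K := K) (x := x) (u := u) (x0 := x0) ht hs hr (k + q) x1 z
    (cS p ez U K v F2 x0 (k + j) x1 z)
  have h2 := H548.ze_nonneg ht hs hr o K x u x0 (k + q) x1 z (cS p ez U K v F2 x0 (k + j) x1 z)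
  have h3 : 0 ≤ (dx p s r o K x u x0 (k + q) x1 (ix (k + q + 1) z) *ᵥ
      cS p ez U K v F2 x0 (k + j) x1 z) ⬝ᵥ (dx p s r o K x u x0 (k + q) x1 (ix (k + q + 1) z) *ᵥ
      cS p ez U K v F2 x0 (k + j) x1 z) := H447.dot_self_nonneg _
  have h4 : 0 ≤ (beI p r)⁻¹ * ((dx p s r o K x u x0 (k + q) x1 (ix (k + q + 1) z) *ᵥ
      cS p ez U K v F2 x0 (k + j) x1 z) ⬝ᵥ (dx p s r o K x u x0 (k + q) x1 (ix (k + q + 1) z) *ᵥ
      cS p ez U K v F2 x0 (k + j) x1 z)) := mul_nonneg (by positivity) h3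
  have h5 : 0 ≤ (beI p r)⁻¹ * (cS p ez U K v F2 x0 (k + j) x1 z ⬝ᵥ
      H548.eN p s r o K x u x0 (k + q) x1 z *ᵥ cS p ez U K v F2 x0 (k + j) x1 z) :=
    mul_nonneg (by positivity) h2
  unfold H548.eN at h5
  unfold dx at h4 ⊢
  unfold H548.chg
  linarith

/-- drift of the moves, time `k + j`, lag `q` -/
theorem dr_le (ht : 0 < p.t) (hs : 0 < s) (hr : 1 ≤ r) (j q n : ℕ) (F1 F3 : ℕ → Pt → ℝ)
    (g : ℤ → ℤ → ℝ) (Q1 Q2 Q3 : ℕ → Pt → Prop) :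
    (beI p r)⁻¹ * ∑ k ∈ Ico 0 (K - q), En K (cx K x).2.2 (cx K x).1 (ex p s r o K x u x0)
        (cS p ez U K v F2 x0 (k + j)) (k + q) ≤
      vN j q ι p n ez F1 F2 F3 o K x s r U g u v Q1 Q2 Q3 x0 := by
  have hbe := be_pos (p := p) ht hr
  unfold H548.vN
  rw [mul_sum, ← range_eq_Ico]
  refine sum_le_sum fun k _ => ?_
  unfold H419.WFamR.En
  rw [mul_sum]
  refine sum_le_sum fun x1 _ => ?_
  rw [mul_sum]
  refine sum_le_sum fun z _ => ?_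
  have h1 := kinds_nn (o := o) (K := K) (x := x) (u := u) (x0 := x0) ht hs hr (k + q) x1 z
    (cS p ez U K v F2 x0 (k + j) x1 z)
  have h2 := H548.ze_nonneg ht hs hr o K x u x0 (k + q) x1 z (cS p ez U K v F2 x0 (k + j) x1 z)
  have h3 : 0 ≤ (dx p s r o K x u x0 (k + q) x1 (ix (k + q + 1) z) *ᵥ
      cS p ez U K v F2 x0 (k + j) x1 z) ⬝ᵥ (dx p s r o K x u x0 (k + q) x1 (ix (k + q + 1) z) *ᵥ
      cS p ez U K v F2 x0 (k + j) x1 z) := H447.dot_self_nonneg _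
  have h4 : 0 ≤ (beI p r)⁻¹ * ((dx p s r o K x u x0 (k + q) x1 (ix (k + q + 1) z) *ᵥ
      cS p ez U K v F2 x0 (k + j) x1 z) ⬝ᵥ (dx p s r o K x u x0 (k + q) x1 (ix (k + q + 1) z) *ᵥ
      cS p ez U K v F2 x0 (k + j) x1 z)) := mul_nonneg (by positivity) h3
  have h5 : 0 ≤ (beI p r)⁻¹ * (cS p ez U K v F2 x0 (k + j) x1 z ⬝ᵥ
      H548.eN p s r o K x u x0 (k + q) x1 z *ᵥ cS p ez U K v F2 x0 (k + j) x1 z) :=
    mul_nonneg (by positivity) h2
  unfold H548.eN at h5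
  unfold dx at h4
  unfold ex
  unfold H548.chg
  linarith

theorem cS_min (k : ℕ) : cS p ez U K v F2 x0 (min k K) = cS p ez U K v F2 x0 k := by
  unfold H808.cS H44.Ti.Cs
  rw [min_assoc, min_self]

/-- the end: one parameter -/
theorem end_le {J : ℕ} {z2 E B q q' : ℝ} (hz : 0 ≤ z2) (hE : 0 ≤ E) (hB : 0 ≤ B) (hq : 0 ≤ q)
    (hqq : q ≤ q') :
    18 * (120000 * ((J : ℝ) + 1) ^ 3) * (√(z2 * E * (q * B)) + q * E) ≤
      2160000 * ((J : ℝ) + 1) ^ 3 * (√(z2 * E * (q' * B)) + q' * E) := by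
  have h1 : √(z2 * E * (q * B)) ≤ √(z2 * E * (q' * B)) := by
    refine Real.sqrt_le_sqrt ?_
    exact mul_le_mul_of_nonneg_left (mul_le_mul_of_nonneg_right hqq hB) (mul_nonneg hz hE)
  have h2 : q * E ≤ q' * E := mul_le_mul_of_nonneg_right hqq hE
  have h3 : 0 ≤ 2160000 * ((J : ℝ) + 1) ^ 3 := by positivity
  calc 18 * (120000 * ((J : ℝ) + 1) ^ 3) * (√(z2 * E * (q * B)) + q * E)
      = 2160000 * ((J : ℝ) + 1) ^ 3 * (√(z2 * E * (q * B)) + q * E) := by ring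
    _ ≤ _ := mul_le_mul_of_nonneg_left (add_le_add h1 h2) h3

end pt

theorem pt : FixBC 2160000 2 fE fB := by
  intro ι _ _ p n ez F1 F2 F3 o K x s r U g u v Q1 Q2 Q3 ha ha1 he0 he04 hk8 hk3 hc hd hd1 hKt he
    hcP hL ht ht1 h1 h3 h2 ho hKn hs hr hcls q1 q2 q3 hez fU fP t' ht' x0 hx0 z J hz1 hz2 hJ
  have hr0 : 0 < r := by linarith
  have hy : 0 < p.t / r := div_pos ht hr0
  have hy1 : p.t / r ≤ 1 := (div_le_self ht.le hr).trans ht1
  have hbe : 0 < beI p r := be_pos ht hr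
  have hbe1 : beI p r ≤ 1 := Real.rpow_le_one hy.le hy1 (by linarith)
  have hl : 0 < p.lam s r := H401.Num.lam_pos (p := p) ht hs hr
  have hth : 0 < p.th s r := H401.Num.th_pos (p := p) ht hs hr
  have hτ : 0 < tauI p s r := tauI_pos ht hs hr
  have hz : 0 < z := by
    refine lt_of_lt_of_le ?_ hz1
    exact mul_pos (Real.rpow_pos_of_pos hy _) hτ
  have hEn := nnE ι p n ez F1 F2 F3 o K x s r U g u v Q1 Q2 Q3 x0 ht hs hr hez
  have hBn := nnB ι p n ez F1 F2 F3 o K x s r U g u v Q1 Q2 Q3 x0 ht hs hr hez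
  have g1 := oN_nn (ι := ι) (ez := ez) (o := o) (K := K) (x := x) (U := U) (u := u) (v := v)
    (F2 := F2) (x0 := x0) ht hs hr 0 n F1 F3 g Q1 Q2 Q3
  have g2 := vN_nn (ι := ι) (ez := ez) (o := o) (K := K) (x := x) (U := U) (u := u) (v := v)
    (F2 := F2) (x0 := x0) ht hs hr 1 0 n F1 F3 g Q1 Q2 Q3
  have g3 := wv_nn (ι := ι) (ez := ez) (o := o) (K := K) (x := x) (U := U) (u := u) (v := v)
    (F2 := F2) (x0 := x0) ht hs hr n F1 F3 g Q1 Q2 Q3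
  have g4 := cr_nn (ι := ι) (ez := ez) (o := o) (K := K) (x := x) (U := U) (u := u) (v := v)
    (F2 := F2) (x0 := x0) ht hs hr H989.CrB.mB n F1 F3 g Q1 Q2 Q3
  have g5 := bN_nn (ι := ι) (ez := ez) (o := o) (K := K) (x := x) (U := U) (u := u) (v := v)
    (F2 := F2) (x0 := x0) ht hs hr 0 n F1 F3 g Q1 Q2 Q3
  have g6 := wb_nn (ι := ι) (ez := ez) (o := o) (K := K) (x := x) (U := U) (u := u) (v := v)
    (F2 := F2) (x0 := x0) ht hs hr n F1 F3 g Q1 Q2 Q3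
  have hEe : fE ι p n ez F1 F2 F3 o K x s r U g u v Q1 Q2 Q3 x0 =
      oN 0 ι p n ez F1 F2 F3 o K x s r U g u v Q1 Q2 Q3 x0 +
      vN 1 0 ι p n ez F1 F2 F3 o K x s r U g u v Q1 Q2 Q3 x0 +
      (∑ l ∈ range (K + 1), (3 / 4 : ℝ) ^ l *
        vN 0 l ι p n ez F1 F2 F3 o K x s r U g u v Q1 Q2 Q3 x0) +
      fCRB H989.CrB.mB ι p n ez F1 F2 F3 o K x s r U g u v Q1 Q2 Q3 x0 +
      bN 0 ι p n ez F1 F2 F3 o K x s r U g u v Q1 Q2 Q3 x0 +
      (∑ l ∈ range (K + 1), (3 / 4 : ℝ) ^ l *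
        bN (l + 1) ι p n ez F1 F2 F3 o K x s r U g u v Q1 Q2 Q3 x0) := rfl
  have b1 := H652.dB_nonneg (p := p) (s := s) (r := r) (U := U) (K := K) (u := u) (F3 := F3)
    (Q3 := Q3) x x0
  have b2 := H652.payS_nonneg (o := o) (K := K) (M := cx K x) (u := u) (x0 := x0) hbe hl
    (fun k => H652.bS p s r U K u F3 Q3 x0 k)
  have hBe : fB ι p n ez F1 F2 F3 o K x s r U g u v Q1 Q2 Q3 x0 =
      dB p s r U K x u F3 Q3 x0 +
        payS (beI p r) (p.lam s r) o K (cx K x) u (fun k => H652.bS p s r U K u F3 Q3 x0 k) x0 := rfl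
  refine (H329.WinBC.pBC_cls ht hs hr ez U o K x u v F2 F3 Q3 hτ hz x0).trans ?_
  rw [← H74.CutBC.GW_win_cut]
  have hT := H652.wt_Th (fun x1 => tr_T hl K u x1) (cx K x).2.1 (o - 2) x0
  refine le_trans ?_ (end_le (J := J) (sq_nonneg z) hEn hBn (sq_nonneg (p.th s r)) ?_)
  · have hPc : ∀ k < K, ∀ w m, ¬ Pr (cS p ez U K v F2 x0) k w m → ∀ y ∈ iv k m,
        cS p ez U K v F2 x0 (k + 1) y w = cS p ez U K v F2 x0 k y w := pr_not
    refine H736.fix_BC2 (be := beI p r) (T := Tx p s r o K x u x0) (e := ex p s r o K x u x0)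
      (d := dx p s r o K x u x0) hbe hbe1 (s := z ^ 2) (q := p.th s r ^ 2) (τ := 2)
      (by positivity) (by positivity) (by norm_num) le_rfl hT
      (fun k x1 m => H652.Th_le_two (M := (cx K x).2.1) (tr_T hl K u x1) (o - 2) x0 x1 k m)
      (N := K) (b := H652.bS p s r U K u F3 Q3 x0)
      (c := H170.Win.cut K (cx K x).1 (cx K x).2.2 (cS p ez U K v F2 x0))
      (Pb := PbS p s r U K u F3 Q3 x0) (Pc := Pr (cS p ez U K v F2 x0))
      (H652.PbS_off x0) (H74.CutBC.cut_row hPc) (H652.bS_capk hth x0) (H652.bS_capk1 hth x0)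
      (H652.bS_capN hth x0) (C := cCI p s r ^ 2) ?_ ?_ (J := J) ?_ (R₁ := (cx K x).2.1)
      (S₁ := (cx K x).1) (T₁ := (cx K x).2.2) (cc := cP o x0) (H677.cP_pl ho x0) hEn hBn
      ?_ ?_ ?_ ?_ ?_ ?_ ?_ ?_ ?_ ?_ ?_ ?_ ?_
    · intro k a i m hka haN
      exact H74.CapBC.cut_capX (o := o) (u := u) ht ht1 hd1 he0.le hs hr hez hKn hcls.toCls q2 x0
        (by omega) (by omega) (by omega) i m
    · intro k a i m hka haN
      exact H74.CapBC.cut_capX (o := o) (u := u) ht ht1 hd1 he0.le hs hr hez hKn hcls.toCls q2 x0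
        (by omega) (by omega) (by omega) i m
    · have h5 : (2 * cCI p s r) ^ 2 = 4 * cCI p s r ^ 2 := by ring
      have h6 := sq_nonneg (cCI p s r)
      rw [h5] at hJ
      linarith
    · refine (H652.bS_hB1 x x0).trans ?_
      rw [hBe]
      linarith
    · refine (H652.bS_hB2 x x0).trans ?_
      rw [hBe]
      linarith
    · refine (H652.pay_hB3 (M := cx K x) (o := o) (x0 := x0) hbe hl
        (H652.bS p s r U K u F3 Q3 x0)).trans ?_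
      rw [hBe]
      exact le_add_of_nonneg_left b1
    · refine (H652.pay_hB4 (l := p.lam s r) (M := cx K x) (o := o) (x0 := x0) hbe
        (H652.bS p s r U K u F3 Q3 x0)).trans ?_
      rw [hBe]
      exact le_add_of_nonneg_left b1
    · rw [H74.CutBC.c1_cut, H74.CutBC.nmH_cut]
      refine le_trans (le_of_eq ?_) (by rw [hEe]; linarith :
        oN 0 ι p n ez F1 F2 F3 o K x s r U g u v Q1 Q2 Q3 x0 ≤ _)
      unfold H419.WFamR.nmH H419.WFamR.c1 H419.WFamR.Wn H548.oN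
      rw [Nat.zero_add, cS_min, Nat.zero_min]
      rfl
    · rw [H74.CutBC.c1_cut, H74.CutBC.nmD_cut, nmD_c1]
      refine (var_le (ez := ez) (U := U) (v := v) (F2 := F2) ht hs hr 1 0 n F1 F3 g Q1 Q2
        Q3).trans ?_
      rw [hEe]
      linarith
    · rw [H74.CutBC.c1_cut, H74.CutBC.nmE_cut, nmE_c1]
      refine (dr_le (ez := ez) (U := U) (v := v) (F2 := F2) ht hs hr 1 0 n F1 F3 g Q1 Q2
        Q3).trans ?_
      rw [hEe]
      linarith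
    · refine le_trans (le_of_eq ?_) (by rw [hEe]; linarith :
        fCRB H989.CrB.mB ι p n ez F1 F2 F3 o K x s r U g u v Q1 Q2 Q3 x0 ≤ _)
      unfold H989.CrB.fCRB
      refine sum_congr rfl fun k hk => sum_congr rfl fun y hy' => sum_congr rfl fun w hw => ?_
      have hk1 := (mem_Ico.1 hk).2
      rw [H74.CutBC.wE_cut (show k + 1 ≤ K from hk1) hy' hw]
      rfl
    · refine le_trans (le_of_eq ?_) ((H302.Wn_bN (ez := ez) (U := U) (v := v) (F2 := F2) ht hs hr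
        (P := Pr (cS p ez U K v F2 x0)) pr_ch n F1 F3 g Q1 Q2 Q3).trans
        (by rw [hEe]; linarith : bN 0 ι p n ez F1 F2 F3 o K x s r U g u v Q1 Q2 Q3 x0 ≤ _))
      refine sum_congr rfl fun k hk => ?_
      have hk1 := (mem_Ico.1 hk).2
      exact H74.CutBC.Wn_rs_cut (show k + 1 ≤ K from hk1) _ _ _
    · rw [H74.CutBC.nmH_cut]
      have h7 : nmH K (cx K x).2.2 (cx K x).1 (beI p r) (Tx p s r o K x u x0)
          (cS p ez U K v F2 x0) = fun _ => 0 := by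
        funext q
        unfold H419.WFamR.nmH H419.WFamR.Wn
        refine sum_eq_zero fun y _ => sum_eq_zero fun w _ => ?_
        rw [H548.cS_zero, zero_dotProduct]
      rw [h7]
      have h8 : wS K (fun _ => (0 : ℝ)) = 0 := by
        unfold H912.wS
        simp
      rw [h8]
      exact hEn
    · rw [H74.CutBC.nmD_cut]
      refine (H912.wS_mono fun q => var_le (ez := ez) (U := U) (v := v) (F2 := F2) ht hs hr 0 q n
        F1 F3 g Q1 Q2 Q3).trans ?_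
      unfold H912.wS
      rw [hEe]
      linarith
    · rw [H74.CutBC.nmE_cut]
      refine (H912.wS_mono fun q => dr_le (ez := ez) (U := U) (v := v) (F2 := F2) ht hs hr 0 q n
        F1 F3 g Q1 Q2 Q3).trans ?_
      unfold H912.wS
      rw [hEe]
      linarith
    · rw [H74.CutBC.nmB_cut]
      refine (H912.wS_mono fun q => H302.nmB_bN (ez := ez) (U := U) (v := v) (F2 := F2) ht hs hr
        (P := Pr (cS p ez U K v F2 x0)) pr_ch q n F1 F3 g Q1 Q2 Q3).trans ?_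
      unfold H912.wS
      rw [hEe]
      linarith
  · unfold H408.tauI
    nlinarith

/-- **The leaf of the moving pair `(Bg, Cg)`.** -/
theorem lBCg : LBCg :=
  lbc_end (by norm_num) (by norm_num) (numBC_of sumE sumB nnE nnB pt)

end

end Vale.Agent.P141.H107
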